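import Vale.Agent.Lib.P154.AFSound
import Vale.Agent.Lib.P154.SF.Prog

/-! Real values of the programs. -/

namespace Vale.Agent.Lib.P154

namespace SF

lemma evR_lc {x y : Ex} {env : List ℝ} {v r : ℝ} (h1 : Ex.evR x env = v) (h2 : Ex.evR y (v :: env) = r) :
    Ex.evR (Ex.l x y) env = r := by
  subst h1; subst h2; rfl

/-- Upper bound polynomial for the quartic coefficient. -/
noncomputable def AbF (x y : ℝ) : ℝ := ((((((((((((((((((((rv 281474979630624 * y) + rv 281474976310960) * y) + rv 281474975537504) * y) + rv 281474972209280) * y) + rv 281474975843456) * y) + rv 281474976731344) * x) + ((((((((((rv 281474986475184 * y) + rv 281474985430384) * y) + rv 281474981274976) * y) + rv 281474980427040) * y) + rv 281474975757824) * y) + rv 281474976346368)) * x) + ((((((((((rv 281474979678576 * y) + rv 281474982355344) * y) + rv 281474980880080) * y) + rv 281474982165280) * y) + rv 281474979847504) * y) + rv 281474977173520)) * x) + ((((((((((rv 281474972232288 * y) +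 rv 281474975372368) * y) + rv 281474974803568) * y) + rv 281474976635040) * y) + rv 281474978762624) * y) + rv 281474977152848)) * x) + ((((((((((rv 281474977084032 * y) + rv 281474980081104) * y) + rv 281474975898768) * y) + rv 281474980032176) * y) + rv 281474974490592) * y) + rv 281474977641360)) * x) + ((((((((((rv 281474979426336 * y) + rv 281474980962000) * y) + rv 281474978783216) * y) + rv 281474985674192) * y) + rv 281474977928032) * y) + rv 281474993808448))

/-- Upper bound polynomial for the quadratic coefficient. -/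
noncomputable def BbF (x y : ℝ) : ℝ := ((((((((((((((((((((((((((((rv 281474987946272 * y) + rv 281474985301984) * y) + rv 281474979028448) * y) + rv 281474938980160) * y) + rv 281474942788448) * y) + rv 281474965340368) * y) + rv 281474870191200) * y) + rv 281474953173568) * x) + ((((((((((((((rv 281475027528896 * y) + rv 281475043896288) * y) + rv 281475026148304) * y) + rv 281475020491488) * y) + rv 281475001982432) * y) + rv 281474984119616) * y) + rv 281475036886640) * y) + rv 281474989991264)) * x) + ((((((((((((((rv 281474987750352 * y) + rv 281474990466304) * y) + rv 281475015175776) * y) + rv 281475070192080) * y) + rv 281475043470048) * y) + rv 281474997353696) * y) + rv 281475146478976) * y) + rv 281475014176976)) * x) + ((((((((((((((rv 281474779777232 * y) + rv 281474832231024) * y) + rv 281474891907680) * y) + rv 281474879577344) * y) + rv 281474917991824) * y) + rv 281474960052944) * y) + rv 281474757010720) * y) + rv 281474927962976)) * x) + ((((((((((((((rv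 281474820680704 * y) + rv 281475072464192) * y) + rv 281474945570720) * y) + rv 281474958220208) * y) + rv 281475015243632) * y) + rv 281474998969936) * y) + rv 281475046701440) * y) + rv 281474991693104)) * x) + ((((((((((((((rv 281474826441200 * y) + rv 281475180991712) * y) + rv 281474887841184) * y) + rv 281475078909040) * y) + rv 281474951253984) * y) + rv 281474997611888) * y) + rv 281475144314720) * y) + rv 281475012527312)) * x) + ((((((((((((((rv 281474726820496 * y) + rv 281474943635136) * y) + rv 281474760573152) * y) + rv 281474959651056) * y) + rv 281474747630048) * y) + rv 281474934630560) * y) + rv 281474690723920) * y) + rv 281474914900320)) * x) + ((((((((((((((rv 281475029187024 * y) + rv 281475065434816) * y) + rv 281475002790048) * y) + rv 281475057426688) * y) + rv 281474982007584) * y) + rv 281475077374688) * y) + rv 281474938292768) * y) + rv 281475075673648))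

/-- Value of h. -/
noncomputable def ch (r b l u : ℝ) : ℝ := ((b * b) - b)

/-- Value of g. -/
noncomputable def cg (r b l u : ℝ) : ℝ := (ch r b l u + rv 281475245146112)

/-- Value of g2. -/
noncomputable def cg2 (r b l u : ℝ) : ℝ := (cg r b l u * cg r b l u)

/-- Value of g3. -/
noncomputable def cg3 (r b l u : ℝ) : ℝ := (cg2 r b l u * cg r b l u)

/-- Value of g4. -/
noncomputable def cg4 (r b l u : ℝ) : ℝ := (cg3 r b l u * cg r b l u)

/-- Value of g5. -/
noncomputable def cg5 (r b l u : ℝ) : ℝ := (cg4 r b l u * cg r b l u)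

/-- Value of g6. -/
noncomputable def cg6 (r b l u : ℝ) : ℝ := (cg5 r b l u * cg r b l u)

/-- Value of g7. -/
noncomputable def cg7 (r b l u : ℝ) : ℝ := (cg6 r b l u * cg r b l u)

/-- Value of g8. -/
noncomputable def cg8 (r b l u : ℝ) : ℝ := (cg7 r b l u * cg r b l u)

/-- Value of g9. -/
noncomputable def cg9 (r b l u : ℝ) : ℝ := (cg8 r b l u * cg r b l u)

/-- Value of h2. -/
noncomputable def ch2 (r b l u : ℝ) : ℝ := (ch r b l u * ch r b l u)

/-- Value of h3. -/
noncomputable def ch3 (r b l u : ℝ) : ℝ := (ch2 r b l u * ch r b l u)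

/-- Value of h4. -/
noncomputable def ch4 (r b l u : ℝ) : ℝ := (ch3 r b l u * ch r b l u)

/-- Value of Mt. -/
noncomputable def cMt (r b l u : ℝ) : ℝ := ((((((((((((((((((((((((((((((rv 281474983346176 * (cg6 r b l u * ch2 r b l u)) + (rv 281474976636928 * cg9 r b l u)) * r) + ((rv 281475021666304 * (cg4 r b l u * ch3 r b l u)) + (rv 281474992801792 * (cg7 r b l u * ch r b l u)))) * r) + (((rv 281475033444352 * (cg2 r b l u * ch4 r b l u)) + (rv 281475282276352 * (cg5 r b l u * ch2 r b l u))) + (rv 281474984341504 * cg8 r b l u))) * r) + ((rv 281476320403456 * (cg3 r b l u * ch3 r b l u)) + (rv 281475469729792 * (cg6 r b l u * ch r b l u)))) * r) + (((rv 281476190513152 * (cg r b l u * ch4 r b l u)) + (rv 281479671175168 * (cg4 r b l u * ch2 r b l u))) + (rv 281475159851008 * cg7 r b l u))) * r) + ((rv 281483453919232 * (cg2 r b l u * ch3 r b l u)) + (rv 281479544270848 * (cg5 r b l u * ch r b l u)))) * r) + (((rv 281479814004736 * ch4 r b l u) + (rv 281491602669568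 * (cg3 r b l u * ch2 r b l u))) + (rv 281476436525056 * cg6 r b l u))) * r) + ((rv 281490348556288 * (cg r b l u * ch3 r b l u)) + (rv 281487872180224 * (cg4 r b l u * ch r b l u)))) * r) + ((rv 281497380548608 * (cg2 r b l u * ch2 r b l u)) + (rv 281478826639360 * cg5 r b l u))) * r) + ((rv 281483200110592 * ch3 r b l u) + (rv 281491405594624 * (cg3 r b l u * ch r b l u)))) * r) + ((rv 281490348556288 * (cg r b l u * ch2 r b l u)) + (rv 281478712342528 * cg4 r b l u))) * r) + (rv 281483453919232 * (cg2 r b l u * ch r b l u))) * r) + ((rv 281479814004736 * ch2 r b l u) + (rv 281475962085376 * cg3 r b l u))) * r) + (rv 281476190513152 * (cg r b l u * ch r b l u))) * r) + (rv 281475033444352 * cg2 r b l u))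

/-- Value of st. -/
noncomputable def cst (r b l u : ℝ) : ℝ := ((((((((((((((((rv 281475782017024 * ch3 r b l u) + (rv 281477392629760 * (cg3 r b l u * ch r b l u))) * r) + ((rv 281494304063488 * (cg r b l u * ch2 r b l u)) + (rv 281479808548864 * cg4 r b l u))) * r) + (rv 281542622445568 * (cg2 r b l u * ch r b l u))) * r) + ((rv 281542622445568 * ch2 r b l u) + (rv 281520073867264 * cg3 r b l u))) * r) + (rv 281644091047936 * (cg r b l u * ch r b l u))) * r) + (rv 281542622445568 * cg2 r b l u)) * r) + (rv 281542622445568 * ch r b l u)) * r) + (rv 281494304063488 * cg r b l u))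

/-- Value of ts. -/
noncomputable def cts (r b l u : ℝ) : ℝ := (r * cst r b l u)

/-- Value of S. -/
noncomputable def cS (r b l u : ℝ) : ℝ := (rv 281475782017024 + (r * cts r b l u))

/-- Value of y0. -/
noncomputable def cy0 (r b l u : ℝ) : ℝ := (rv 281475245146112 + (r * b))

/-- Value of y1. -/
noncomputable def cy1 (r b l u : ℝ) : ℝ := (rv 281475245146112 + (r * (rv 281475245146112 - b)))

/-- Value of y2. -/
noncomputable def cy2 (r b l u : ℝ) : ℝ := (rv 281475245146112 - r)

/-- Value of D0. -/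
noncomputable def cD0 (r b l u : ℝ) : ℝ := ((((((((((((((((rv 281475245146112 * cy0 r b l u) + rv 281475245146112) * cy0 r b l u) + rv 281475245146112) * cy0 r b l u) + rv 281475245146112) * cy0 r b l u) + rv 281475245146112) * cy0 r b l u) + rv 281475245146112) * cy0 r b l u) + rv 281475245146112) * cy0 r b l u) + rv 281475245146112) * cy0 r b l u) + rv 281475245146112)

/-- Value of D1. -/
noncomputable def cD1 (r b l u : ℝ) : ℝ := ((((((((((((((((rv 281475245146112 * cy1 r b l u) + rv 281475245146112) * cy1 r b l u) + rv 281475245146112) * cy1 r b l u) + rv 281475245146112) * cy1 r b l u) + rv 281475245146112) * cy1 r b l u) + rv 281475245146112) * cy1 r b l u) + rv 281475245146112) * cy1 r b l u) + rv 281475245146112) * cy1 r b l u) + rv 281475245146112)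

/-- Value of D2. -/
noncomputable def cD2 (r b l u : ℝ) : ℝ := ((((((((((((((((rv 281475245146112 * cy2 r b l u) + rv 281475245146112) * cy2 r b l u) + rv 281475245146112) * cy2 r b l u) + rv 281475245146112) * cy2 r b l u) + rv 281475245146112) * cy2 r b l u) + rv 281475245146112) * cy2 r b l u) + rv 281475245146112) * cy2 r b l u) + rv 281475245146112) * cy2 r b l u) + rv 281475245146112)

/-- Value of P0. -/
noncomputable def cP0 (r b l u : ℝ) : ℝ := ((rv 281475782017024 * (b * cD0 r b l u)) - cts r b l u)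

/-- Value of P1. -/
noncomputable def cP1 (r b l u : ℝ) : ℝ := ((rv 281475782017024 * ((rv 281475245146112 - b) * cD1 r b l u)) - cts r b l u)

/-- Value of Pt. -/
noncomputable def cPt (r b l u : ℝ) : ℝ := ((rv 281475782017024 * cD2 r b l u) + cts r b l u)

/-- Value of n0. -/
noncomputable def cn0 (r b l u : ℝ) : ℝ := (rv 281474977759232 * cP0 r b l u)

/-- Value of n1. -/
noncomputable def cn1 (r b l u : ℝ) : ℝ := (rv 281474977759232 * cP1 r b l u)

/-- Value of n2. -/
noncomputable def cn2 (r b l u : ℝ) : ℝ := (rv 281474977759232 * cPt r b l u)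

/-- Value of Nn. -/
noncomputable def cNn (r b l u : ℝ) : ℝ := (rv 281543696187392 * (((cn0 r b l u * cn0 r b l u) + (cn1 r b l u * cn1 r b l u)) + (cn2 r b l u * cn2 r b l u)))

/-- Value of iS. -/
noncomputable def ciS (r b l u : ℝ) : ℝ := (cS r b l u)⁻¹

/-- Value of Xv. -/
noncomputable def cXv (r b l u : ℝ) : ℝ := ((r * r) * (rv 281543696187392 * (cNn r b l u * (ciS r b l u * ciS r b l u))))

/-- Value of aq. -/
noncomputable def caq (r b l u : ℝ) : ℝ := (cP0 r b l u * (cPt r b l u)⁻¹)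

/-- Value of tq. -/
noncomputable def ctq (r b l u : ℝ) : ℝ := (l * (r * (cPt r b l u * ciS r b l u)))

/-- Value of x6. -/
noncomputable def cx6 (r b l u : ℝ) : ℝ := (caq r b l u - rv 281475312254976)

/-- Value of y6. -/
noncomputable def cy6 (r b l u : ℝ) : ℝ := (ctq r b l u - rv 281475036741632)

/-- Value of Ab6. -/
noncomputable def cAb6 (r b l u : ℝ) : ℝ := AbF (cx6 r b l u) (cy6 r b l u)

/-- Value of Bb6. -/
noncomputable def cBb6 (r b l u : ℝ) : ℝ := BbF (cx6 r b l u) (cy6 r b l u)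

/-- Value of Bq6. -/
noncomputable def cBq6 (r b l u : ℝ) : ℝ := (cBb6 r b l u * cBb6 r b l u)

/-- Value of Lq6. -/
noncomputable def cLq6 (r b l u : ℝ) : ℝ := (l * l)

/-- Value of dn6. -/
noncomputable def cdn6 (r b l u : ℝ) : ℝ := (rv 281475245146112 + (rv 281475097296896 * (cBb6 r b l u * cXv r b l u)))

/-- Value of rhs6. -/
noncomputable def crhs6 (r b l u : ℝ) : ℝ := (((cLq6 r b l u * cAb6 r b l u) + (rv 281475030939840 * (cBq6 r b l u * (cdn6 r b l u)⁻¹))) + rv 281474976743424)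

/-- Value of the program K6c. -/
noncomputable def RK6c (r b l u : ℝ) : ℝ := ((cMt r b l u * (cS r b l u * cS r b l u)) - ((cNn r b l u * cNn r b l u) * crhs6 r b l u))

set_option maxRecDepth 100000 in
theorem evR_K6c (r b l u : ℝ) : Ex.evR K6c [r, b, l, u] = RK6c r b l u :=
  evR_lc (v := ch r b l u) rfl (evR_lc (v := cg r b l u) rfl (evR_lc (v := cg2 r b l u) rfl (evR_lc (v := cg3 r b l u) rfl (evR_lc (v := cg4 r b l u) rfl (evR_lc (v := cg5 r b l u) rfl (evR_lc (v := cg6 r b l u) rfl (evR_lc (v := cg7 r b l u) rfl (evR_lc (v := cg8 r b l u) rfl (evR_lc (v := cg9 r b l u) rfl (evR_lc (v := ch2 r b l u) rfl (evR_lc (v := ch3 r b l u) rfl (evR_lc (v := ch4 r b l u) rfl (evR_lc (v := cMt r b l u) rfl (evR_lc (v := cst r b l u) rfl (evR_lc (v := cts r b l u) rfl (evR_lc (v := cS r b l u) rfl (evR_lc (v := cy0 r b l u) rfl (evR_lc (v := cy1 r b l u) rfl (evR_lc (v := cy2 r b l u) rfl (evR_lc (v := cD0 r b l u) rfl (evR_lc (v := cD1 r b l u) rfl (evR_lc (v := cD2 r b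 l u) rfl (evR_lc (v := cP0 r b l u) rfl (evR_lc (v := cP1 r b l u) rfl (evR_lc (v := cPt r b l u) rfl (evR_lc (v := cn0 r b l u) rfl (evR_lc (v := cn1 r b l u) rfl (evR_lc (v := cn2 r b l u) rfl (evR_lc (v := cNn r b l u) rfl (evR_lc (v := ciS r b l u) rfl (evR_lc (v := cXv r b l u) rfl (evR_lc (v := caq r b l u) rfl (evR_lc (v := ctq r b l u) rfl (evR_lc (v := cx6 r b l u) rfl (evR_lc (v := cy6 r b l u) rfl (evR_lc (v := cAb6 r b l u) rfl (evR_lc (v := cBb6 r b l u) rfl (evR_lc (v := cBq6 r b l u) rfl (evR_lc (v := cLq6 r b l u) rfl (evR_lc (v := cdn6 r b l u) rfl (evR_lc (v := crhs6 r b l u) rfl (rfl))))))))))))))))))))))))))))))))))))))))))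

/-- Value of a2. -/
noncomputable def fa2 (r b l u : ℝ) : ℝ := (r * r)

/-- Value of a3. -/
noncomputable def fa3 (r b l u : ℝ) : ℝ := (fa2 r b l u * r)

/-- Value of a4. -/
noncomputable def fa4 (r b l u : ℝ) : ℝ := (fa3 r b l u * r)

/-- Value of a5. -/
noncomputable def fa5 (r b l u : ℝ) : ℝ := (fa4 r b l u * r)

/-- Value of a6. -/
noncomputable def fa6 (r b l u : ℝ) : ℝ := (fa5 r b l u * r)

/-- Value of a7. -/
noncomputable def fa7 (r b l u : ℝ) : ℝ := (fa6 r b l u * r)

/-- Value of a8. -/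
noncomputable def fa8 (r b l u : ℝ) : ℝ := (fa7 r b l u * r)

/-- Value of a9. -/
noncomputable def fa9 (r b l u : ℝ) : ℝ := (fa8 r b l u * r)

/-- Value of b2. -/
noncomputable def fb2 (r b l u : ℝ) : ℝ := (b * b)

/-- Value of b3. -/
noncomputable def fb3 (r b l u : ℝ) : ℝ := (fb2 r b l u * b)

/-- Value of b4. -/
noncomputable def fb4 (r b l u : ℝ) : ℝ := (fb3 r b l u * b)

/-- Value of b5. -/
noncomputable def fb5 (r b l u : ℝ) : ℝ := (fb4 r b l u * b)

/-- Value of b6. -/
noncomputable def fb6 (r b l u : ℝ) : ℝ := (fb5 r b l u * b)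

/-- Value of b7. -/
noncomputable def fb7 (r b l u : ℝ) : ℝ := (fb6 r b l u * b)

/-- Value of b8. -/
noncomputable def fb8 (r b l u : ℝ) : ℝ := (fb7 r b l u * b)

/-- Value of b9. -/
noncomputable def fb9 (r b l u : ℝ) : ℝ := (fb8 r b l u * b)

/-- Value of S. -/
noncomputable def fS (r b l u : ℝ) : ℝ := ((rv 281475245146112 + fa9 r b l u) + fb9 r b l u)

/-- Value of m1. -/
noncomputable def fm1 (r b l u : ℝ) : ℝ := ((((((fa4 r b l u * b) + (r * fb4 r b l u)) + (fa4 r b l u * b)) + (r * fb4 r b l u)) + (fa4 r b l u * fb4 r b l u)) + (fa4 r b l u * fb4 r b l u))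

/-- Value of m2. -/
noncomputable def fm2 (r b l u : ℝ) : ℝ := ((((((fa2 r b l u * fb2 r b l u) + (fa2 r b l u * fb2 r b l u)) + (fa5 r b l u * fb2 r b l u)) + (fa2 r b l u * fb5 r b l u)) + (fa5 r b l u * fb2 r b l u)) + (fa2 r b l u * fb5 r b l u))

/-- Value of mp. -/
noncomputable def fmp (r b l u : ℝ) : ℝ := ((((((fa3 r b l u * fb3 r b l u) + (fa3 r b l u * fb3 r b l u)) + (fa3 r b l u * fb3 r b l u)) + (fa3 r b l u * fb3 r b l u)) + (fa3 r b l u * fb3 r b l u)) + (fa3 r b l u * fb3 r b l u))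

/-- Value of Lp. -/
noncomputable def fLp (r b l u : ℝ) : ℝ := ((((rv 281479137460224 * fS r b l u) - (rv 281485244366848 * fm1 r b l u)) - (rv 281476184670208 * fm2 r b l u)) + (rv 281484371951616 * fmp r b l u))

/-- Value of P0. -/
noncomputable def fP0 (r b l u : ℝ) : ℝ := (rv 281475782017024 - fS r b l u)

/-- Value of P1. -/
noncomputable def fP1 (r b l u : ℝ) : ℝ := ((rv 281475782017024 * fa9 r b l u) - fS r b l u)

/-- Value of Pt. -/
noncomputable def fPt (r b l u : ℝ) : ℝ := (fS r b l u - (rv 281475782017024 * fb9 r b l u))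

/-- Value of Nx. -/
noncomputable def fNx (r b l u : ℝ) : ℝ := (((fP0 r b l u * fP0 r b l u) + (fP1 r b l u * fP1 r b l u)) + (fPt r b l u * fPt r b l u))

/-- Value of M. -/
noncomputable def fM (r b l u : ℝ) : ℝ := ((fS r b l u * fLp r b l u) - fNx r b l u)

/-- Value of iS. -/
noncomputable def fiS (r b l u : ℝ) : ℝ := (fS r b l u)⁻¹

/-- Value of Xv. -/
noncomputable def fXv (r b l u : ℝ) : ℝ := (fNx r b l u * (fiS r b l u * fiS r b l u))

/-- Value of aq. -/
noncomputable def faq (r b l u : ℝ) : ℝ := (fP0 r b l u * (fPt r b l u)⁻¹)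

/-- Value of tq. -/
noncomputable def ftq (r b l u : ℝ) : ℝ := (l * (fPt r b l u * fiS r b l u))

/-- Value of x6. -/
noncomputable def fx6 (r b l u : ℝ) : ℝ := (faq r b l u - rv 281475312254976)

/-- Value of y6. -/
noncomputable def fy6 (r b l u : ℝ) : ℝ := (ftq r b l u - rv 281475036741632)

/-- Value of Ab6. -/
noncomputable def fAb6 (r b l u : ℝ) : ℝ := AbF (fx6 r b l u) (fy6 r b l u)

/-- Value of Bb6. -/
noncomputable def fBb6 (r b l u : ℝ) : ℝ := BbF (fx6 r b l u) (fy6 r b l u)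

/-- Value of Bq6. -/
noncomputable def fBq6 (r b l u : ℝ) : ℝ := (fBb6 r b l u * fBb6 r b l u)

/-- Value of Lq6. -/
noncomputable def fLq6 (r b l u : ℝ) : ℝ := (l * l)

/-- Value of dn6. -/
noncomputable def fdn6 (r b l u : ℝ) : ℝ := (rv 281475245146112 + (rv 281475097296896 * (fBb6 r b l u * fXv r b l u)))

/-- Value of rhs6. -/
noncomputable def frhs6 (r b l u : ℝ) : ℝ := (((fLq6 r b l u * fAb6 r b l u) + (rv 281475030939840 * (fBq6 r b l u * (fdn6 r b l u)⁻¹))) + rv 281474976743424)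

/-- Value of the program K6f. -/
noncomputable def RK6f (r b l u : ℝ) : ℝ := ((fM r b l u * (fS r b l u * fS r b l u)) - ((fNx r b l u * fNx r b l u) * frhs6 r b l u))

set_option maxRecDepth 100000 in
theorem evR_K6f (r b l u : ℝ) : Ex.evR K6f [r, b, l, u] = RK6f r b l u :=
  evR_lc (v := fa2 r b l u) rfl (evR_lc (v := fa3 r b l u) rfl (evR_lc (v := fa4 r b l u) rfl (evR_lc (v := fa5 r b l u) rfl (evR_lc (v := fa6 r b l u) rfl (evR_lc (v := fa7 r b l u) rfl (evR_lc (v := fa8 r b l u) rfl (evR_lc (v := fa9 r b l u) rfl (evR_lc (v := fb2 r b l u) rfl (evR_lc (v := fb3 r b l u) rfl (evR_lc (v := fb4 r b l u) rfl (evR_lc (v := fb5 r b l u) rfl (evR_lc (v := fb6 r b l u) rfl (evR_lc (v := fb7 r b l u) rfl (evR_lc (v := fb8 r b l u) rfl (evR_lc (v := fb9 r b l u) rfl (evR_lc (v := fS r b l u) rfl (evR_lc (v := fm1 r b l u) rfl (evR_lc (v := fm2 r b l u) rfl (evR_lc (v := fmp r b l u) rfl (evR_lc (v := fLp r b l u) rfl (evR_lc (v := fP0 r b l u) rfl (evR_lc (v := fP1 r b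 l u) rfl (evR_lc (v := fPt r b l u) rfl (evR_lc (v := fNx r b l u) rfl (evR_lc (v := fM r b l u) rfl (evR_lc (v := fiS r b l u) rfl (evR_lc (v := fXv r b l u) rfl (evR_lc (v := faq r b l u) rfl (evR_lc (v := ftq r b l u) rfl (evR_lc (v := fx6 r b l u) rfl (evR_lc (v := fy6 r b l u) rfl (evR_lc (v := fAb6 r b l u) rfl (evR_lc (v := fBb6 r b l u) rfl (evR_lc (v := fBq6 r b l u) rfl (evR_lc (v := fLq6 r b l u) rfl (evR_lc (v := fdn6 r b l u) rfl (evR_lc (v := frhs6 r b l u) rfl (rfl))))))))))))))))))))))))))))))))))))))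

/-- Value of aa. -/
noncomputable def caa (r b l u : ℝ) : ℝ := (cP0 r b l u * (cPt r b l u)⁻¹)

/-- Value of tt. -/
noncomputable def ctt (r b l u : ℝ) : ℝ := (r * (cPt r b l u * ciS r b l u))

/-- Value of xa. -/
noncomputable def cxa (r b l u : ℝ) : ℝ := (caa r b l u - rv 281475312254976)

/-- Value of ya. -/
noncomputable def cya (r b l u : ℝ) : ℝ := (ctt r b l u - rv 281475036741632)

/-- Value of Aba. -/
noncomputable def cAba (r b l u : ℝ) : ℝ := AbF (cxa r b l u) (cya r b l u)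

/-- Value of NN. -/
noncomputable def cNN (r b l u : ℝ) : ℝ := (cNn r b l u * cNn r b l u)

/-- Value of the program KAu. -/
noncomputable def RKAu (r b l u : ℝ) : ℝ := ((cNN r b l u * cAba r b l u) - (cMt r b l u * (cS r b l u * cS r b l u)))

set_option maxRecDepth 100000 in
theorem evR_KAu (r b l u : ℝ) : Ex.evR KAu [r, b, l, u] = RKAu r b l u :=
  evR_lc (v := ch r b l u) rfl (evR_lc (v := cg r b l u) rfl (evR_lc (v := cg2 r b l u) rfl (evR_lc (v := cg3 r b l u) rfl (evR_lc (v := cg4 r b l u) rfl (evR_lc (v := cg5 r b l u) rfl (evR_lc (v := cg6 r b l u) rfl (evR_lc (v := cg7 r b l u) rfl (evR_lc (v := cg8 r b l u) rfl (evR_lc (v := cg9 r b l u) rfl (evR_lc (v := ch2 r b l u) rfl (evR_lc (v := ch3 r b l u) rfl (evR_lc (v := ch4 r b l u) rfl (evR_lc (v := cMt r b l u) rfl (evR_lc (v := cst r b l u) rfl (evR_lc (v := cts r b l u) rfl (evR_lc (v := cS r b l u) rfl (evR_lc (v := cy0 r b l u) rfl (evR_lc (v := cy1 r b l u) rfl (evR_lc (v := cy2 r b l u) rfl (evR_lc (v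 := cD0 r b l u) rfl (evR_lc (v := cD1 r b l u) rfl (evR_lc (v := cD2 r b l u) rfl (evR_lc (v := cP0 r b l u) rfl (evR_lc (v := cP1 r b l u) rfl (evR_lc (v := cPt r b l u) rfl (evR_lc (v := cn0 r b l u) rfl (evR_lc (v := cn1 r b l u) rfl (evR_lc (v := cn2 r b l u) rfl (evR_lc (v := cNn r b l u) rfl (evR_lc (v := ciS r b l u) rfl (evR_lc (v := caa r b l u) rfl (evR_lc (v := ctt r b l u) rfl (evR_lc (v := cxa r b l u) rfl (evR_lc (v := cya r b l u) rfl (evR_lc (v := cAba r b l u) rfl (evR_lc (v := cNN r b l u) rfl (rfl)))))))))))))))))))))))))))))))))))))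

/-- Value of Wt. -/
noncomputable def cWt (r b l u : ℝ) : ℝ := (((((((((((((((rv 281442276868096 * (cg3 r b l u * ch r b l u)) * r) + ((rv 281528485543936 * (cg r b l u * ch2 r b l u)) + (rv 281464324489216 * cg4 r b l u))) * r) + (rv 280881920475136 * (cg2 r b l u * ch r b l u))) * r) + ((rv 280592080961536 * ch2 r b l u) + (rv 281201487118336 * cg3 r b l u))) * r) + (rv 281294384398336 * (cg r b l u * ch r b l u))) * r) + (rv 280881920475136 * cg2 r b l u)) * r) + (rv 280592080961536 * ch r b l u)) * r) + (rv 281528485543936 * cg r b l u))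

/-- Value of Bba. -/
noncomputable def cBba (r b l u : ℝ) : ℝ := BbF (cxa r b l u) (cya r b l u)

/-- Value of Ws. -/
noncomputable def cWs (r b l u : ℝ) : ℝ := (rv 281474977759232 * (cWt r b l u * cS r b l u))

/-- Value of the program KBu. -/
noncomputable def RKBu (r b l u : ℝ) : ℝ := ((cNn r b l u * cBba r b l u) - cWs r b l u)

set_option maxRecDepth 100000 in
theorem evR_KBu (r b l u : ℝ) : Ex.evR KBu [r, b, l, u] = RKBu r b l u :=
  evR_lc (v := ch r b l u) rfl (evR_lc (v := cg r b l u) rfl (evR_lc (v := cg2 r b l u) rfl (evR_lc (v := cg3 r b l u) rfl (evR_lc (v := cg4 r b l u) rfl (evR_lc (v := cg5 r b l u) rfl (evR_lc (v := cg6 r b l u) rfl (evR_lc (v := cg7 r b l u) rfl (evR_lc (v := cg8 r b l u) rfl (evR_lc (v := cg9 r b l u) rfl (evR_lc (v := ch2 r b l u) rfl (evR_lc (v := ch3 r b l u) rfl (evR_lc (v := ch4 r b l u) rfl (evR_lc (v := cMt r b l u) rfl (evR_lc (v := cst r b l u) rfl (evR_lc (v := cts r b l u) rfl (evR_lc (v := cS r b l u) rfl (evR_lc (v :=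 cy0 r b l u) rfl (evR_lc (v := cy1 r b l u) rfl (evR_lc (v := cy2 r b l u) rfl (evR_lc (v := cD0 r b l u) rfl (evR_lc (v := cD1 r b l u) rfl (evR_lc (v := cD2 r b l u) rfl (evR_lc (v := cP0 r b l u) rfl (evR_lc (v := cP1 r b l u) rfl (evR_lc (v := cPt r b l u) rfl (evR_lc (v := cn0 r b l u) rfl (evR_lc (v := cn1 r b l u) rfl (evR_lc (v := cn2 r b l u) rfl (evR_lc (v := cNn r b l u) rfl (evR_lc (v := ciS r b l u) rfl (evR_lc (v := cWt r b l u) rfl (evR_lc (v := caa r b l u) rfl (evR_lc (v := ctt r b l u) rfl (evR_lc (v := cxa r b l u) rfl (evR_lc (v := cya r b l u) rfl (evR_lc (v := cBba r b l u) rfl (evR_lc (v := cWs r b l u) rfl (rfl))))))))))))))))))))))))))))))))))))))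

/-- Value of Hq. -/
noncomputable def cHq (r b l u : ℝ) : ℝ := (((((((((((((((rv 281475863805952 * (cg3 r b l u * ch r b l u)) * r) + ((rv 281481431744512 * (cg r b l u * ch2 r b l u)) + (rv 281476510253056 * cg4 r b l u))) * r) + (rv 281497654263808 * (cg2 r b l u * ch r b l u))) * r) + ((rv 281498928283648 * ch2 r b l u) + (rv 281490302697472 * cg3 r b l u))) * r) + (rv 281529292423168 * (cg r b l u * ch r b l u))) * r) + (rv 281497654263808 * cg2 r b l u)) * r) + (rv 281498928283648 * ch r b l u)) * r) + (rv 281481431744512 * cg r b l u))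

/-- Value of Hp. -/
noncomputable def cHp (r b l u : ℝ) : ℝ := (((((((((((((((rv 281477392629760 * (cg3 r b l u * ch r b l u)) * r) + ((rv 281496719982592 * (cg r b l u * ch2 r b l u)) + (rv 281479808548864 * cg4 r b l u))) * r) + (rv 281540206526464 * (cg2 r b l u * ch r b l u))) * r) + ((rv 281540206526464 * ch2 r b l u) + (rv 281520879173632 * cg3 r b l u))) * r) + (rv 281648922886144 * (cg r b l u * ch r b l u))) * r) + (rv 281540206526464 * cg2 r b l u)) * r) + (rv 281540206526464 * ch r b l u)) * r) + (rv 281496719982592 * cg r b l u))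

/-- Value of the program KRl. -/
noncomputable def RKRl (r b l u : ℝ) : ℝ := (cHq r b l u - (rv 281475055332352 * cHp r b l u))

set_option maxRecDepth 100000 in
theorem evR_KRl (r b l u : ℝ) : Ex.evR KRl [r, b, l, u] = RKRl r b l u :=
  evR_lc (v := ch r b l u) rfl (evR_lc (v := cg r b l u) rfl (evR_lc (v := cg2 r b l u) rfl (evR_lc (v := cg3 r b l u) rfl (evR_lc (v := cg4 r b l u) rfl (evR_lc (v := cg5 r b l u) rfl (evR_lc (v := cg6 r b l u) rfl (evR_lc (v := cg7 r b l u) rfl (evR_lc (v := cg8 r b l u) rfl (evR_lc (v := cg9 r b l u) rfl (evR_lc (v := ch2 r b l u) rfl (evR_lc (v := ch3 r b l u) rfl (evR_lc (v := ch4 r b l u) rfl (evR_lc (v := cMt r b l u) rfl (evR_lc (v := cst r b l u) rfl (evR_lc (v := cts r b l u) rfl (evR_lc (v := cS r b l u) rfl (evR_lc (v := cy0 r b l u) rfl (evR_lc (v := cy1 r b l u) rfl (evR_lc (v := cy2 r b l u) rfl (evR_lc (v := cD0 r b l u) rfl (evR_lc (v := cD1 r b l u) rfl (evR_lc (v := cD2 r b l u) rfl (evR_lc (v := cP0 r b l u) rfl (evR_lc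 (v := cP1 r b l u) rfl (evR_lc (v := cPt r b l u) rfl (evR_lc (v := cn0 r b l u) rfl (evR_lc (v := cn1 r b l u) rfl (evR_lc (v := cn2 r b l u) rfl (evR_lc (v := cNn r b l u) rfl (evR_lc (v := ciS r b l u) rfl (evR_lc (v := cHq r b l u) rfl (evR_lc (v := cHp r b l u) rfl (rfl)))))))))))))))))))))))))))))))))

/-- Value of the program KRu. -/
noncomputable def RKRu (r b l u : ℝ) : ℝ := ((rv 281475058309120 * cHp r b l u) - cHq r b l u)

set_option maxRecDepth 100000 in
theorem evR_KRu (r b l u : ℝ) : Ex.evR KRu [r, b, l, u] = RKRu r b l u :=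
  evR_lc (v := ch r b l u) rfl (evR_lc (v := cg r b l u) rfl (evR_lc (v := cg2 r b l u) rfl (evR_lc (v := cg3 r b l u) rfl (evR_lc (v := cg4 r b l u) rfl (evR_lc (v := cg5 r b l u) rfl (evR_lc (v := cg6 r b l u) rfl (evR_lc (v := cg7 r b l u) rfl (evR_lc (v := cg8 r b l u) rfl (evR_lc (v := cg9 r b l u) rfl (evR_lc (v := ch2 r b l u) rfl (evR_lc (v := ch3 r b l u) rfl (evR_lc (v := ch4 r b l u) rfl (evR_lc (v := cMt r b l u) rfl (evR_lc (v := cst r b l u) rfl (evR_lc (v := cts r b l u) rfl (evR_lc (v := cS r b l u) rfl (evR_lc (v := cy0 r b l u) rfl (evR_lc (v := cy1 r b l u) rfl (evR_lc (v := cy2 r b l u) rfl (evR_lc (v := cD0 r b l u) rfl (evR_lc (v := cD1 r b l u) rfl (evR_lc (v := cD2 r b l u) rfl (evR_lc (v := cP0 r b l u) rfl (evR_lc (v := cP1 r b l u) rfl (evR_lc (v := cPt r b l u) rfl (evR_lc (v := cn0 r b l u) rfl (evR_lc (v := cn1 r b l u) rfl (evR_lc (v := cn2 r b l u) rfl (evR_lc (v := cNn r b l u) rfl (evR_lc (v := ciS r b l u) rfl (evR_lc (v := cHq r b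 l u) rfl (evR_lc (v := cHp r b l u) rfl (rfl)))))))))))))))))))))))))))))))))

/-- Value of the program KXm. -/
noncomputable def RKXm (r b l u : ℝ) : ℝ := ((rv 281475021537280 * cS r b l u) - (r * (r * cHp r b l u)))

set_option maxRecDepth 100000 in
theorem evR_KXm (r b l u : ℝ) : Ex.evR KXm [r, b, l, u] = RKXm r b l u :=
  evR_lc (v := ch r b l u) rfl (evR_lc (v := cg r b l u) rfl (evR_lc (v := cg2 r b l u) rfl (evR_lc (v := cg3 r b l u) rfl (evR_lc (v := cg4 r b l u) rfl (evR_lc (v := cg5 r b l u) rfl (evR_lc (v := cg6 r b l u) rfl (evR_lc (v := cg7 r b l u) rfl (evR_lc (v := cg8 r b l u) rfl (evR_lc (v := cg9 r b l u) rfl (evR_lc (v := ch2 r b l u) rfl (evR_lc (v := ch3 r b l u) rfl (evR_lc (v := ch4 r b l u) rfl (evR_lc (v := cMt r b l u) rfl (evR_lc (v := cst r b l u) rfl (evR_lc (v := cts r b l u) rfl (evR_lc (v := cS r b l u) rfl (evR_lc (v := cy0 r b l u) rfl (evR_lc (v := cy1 r b l u) rfl (evR_lc (v := cy2 r b l u) rfl (evR_lc (v := cD0 r b l u) rfl (evR_lc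 (v := cD1 r b l u) rfl (evR_lc (v := cD2 r b l u) rfl (evR_lc (v := cP0 r b l u) rfl (evR_lc (v := cP1 r b l u) rfl (evR_lc (v := cPt r b l u) rfl (evR_lc (v := cn0 r b l u) rfl (evR_lc (v := cn1 r b l u) rfl (evR_lc (v := cn2 r b l u) rfl (evR_lc (v := cNn r b l u) rfl (evR_lc (v := ciS r b l u) rfl (evR_lc (v := cHq r b l u) rfl (evR_lc (v := cHp r b l u) rfl (rfl)))))))))))))))))))))))))))))))))

/-- Value of w. -/
noncomputable def nw (r b l u : ℝ) : ℝ := (rv 281493767192576 - (rv 281495372824576 * b))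

/-- Value of r2. -/
noncomputable def nr2 (r b l u : ℝ) : ℝ := (b * b)

/-- Value of yy. -/
noncomputable def nyy (r b l u : ℝ) : ℝ := (b * r)

/-- Value of Pu. -/
noncomputable def nPu (r b l u : ℝ) : ℝ := (rv 281475110928384 + (r * (rv 281474931971414 + (r * (rv 281474987895467 + (r * (rv 281474974473694 + (r * (rv 281474977083484 + (r * (rv 281474976657395 + (r * (rv 281474976717314 + (r * (rv 281474976709917 + (r * rv 281474976710730))))))))))))))))

/-- Value of Pl. -/
noncomputable def nPl (r b l u : ℝ) : ℝ := (rv 281475110928384 + (nyy r b l u * (rv 281474931971413 + (nyy r b l u * (rv 281474987895466 + (nyy r b l u * (rv 281474974473693 + (nyy r b l u * (rv 281474977083483 + (nyy r b l u * (rv 281474976657394 + (nyy r b l u * (rv 281474976717313 + (nyy r b l u * (rv 281474976709916 + (nyy r b l u * (rv 281474976710729 + (nyy r b l u * rv 281474976710649))))))))))))))))))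

/-- Value of the program KCP. -/
noncomputable def RKCP (r b l u : ℝ) : ℝ := ((rv 281475030939840 * (nw r b l u * nw r b l u)) - ((rv 281475245146112 + (rv 281475097296896 * (r * nw r b l u))) * ((rv 281493767192576 * nPu r b l u) - (rv 281497927942144 * (nr2 r b l u * nPl r b l u)))))

set_option maxRecDepth 100000 in
theorem evR_KCP (r b l u : ℝ) : Ex.evR KCP [r, b, l, u] = RKCP r b l u :=
  evR_lc (v := nw r b l u) rfl (evR_lc (v := nr2 r b l u) rfl (evR_lc (v := nyy r b l u) rfl (evR_lc (v := nPu r b l u) rfl (evR_lc (v := nPl r b l u) rfl (rfl)))))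

/-- Value of the program KXv. -/
noncomputable def RKXv (r b l u : ℝ) : ℝ := ((rv 281489203789824 * cNn r b l u) - (cHp r b l u * cS r b l u))

set_option maxRecDepth 100000 in
theorem evR_KXv (r b l u : ℝ) : Ex.evR KXv [r, b, l, u] = RKXv r b l u :=
  evR_lc (v := ch r b l u) rfl (evR_lc (v := cg r b l u) rfl (evR_lc (v := cg2 r b l u) rfl (evR_lc (v := cg3 r b l u) rfl (evR_lc (v := cg4 r b l u) rfl (evR_lc (v := cg5 r b l u) rfl (evR_lc (v := cg6 r b l u) rfl (evR_lc (v := cg7 r b l u) rfl (evR_lc (v := cg8 r b l u) rfl (evR_lc (v := cg9 r b l u) rfl (evR_lc (v := ch2 r b l u) rfl (evR_lc (v := ch3 r b l u) rfl (evR_lc (v := ch4 r b l u) rfl (evR_lc (v := cMt r b l u) rfl (evR_lc (v := cst r b l u) rfl (evR_lc (v := cts r b l u) rfl (evR_lc (v := cS r b l u) rfl (evR_lc (v := cy0 r b l u) rfl (evR_lc (v := cy1 r b l u) rfl (evR_lc (v := cy2 r b l u) rfl (evR_lc (v := cD0 r b l u) rfl (evR_lc (v := cD1 r b l u) rfl (evR_lc (v := cD2 r b l u) rfl (evR_lc (v := cP0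 r b l u) rfl (evR_lc (v := cP1 r b l u) rfl (evR_lc (v := cPt r b l u) rfl (evR_lc (v := cn0 r b l u) rfl (evR_lc (v := cn1 r b l u) rfl (evR_lc (v := cn2 r b l u) rfl (evR_lc (v := cNn r b l u) rfl (evR_lc (v := ciS r b l u) rfl (evR_lc (v := cHq r b l u) rfl (evR_lc (v := cHp r b l u) rfl (rfl)))))))))))))))))))))))))))))))))

set_option maxRecDepth 100000 in
theorem evR_gsA0 (r b l u : ℝ) : Ex.evR (nthEx gsA 0) [r, b, l, u] = ((rv 281475216834560 * cS r b l u) - (r * cP0 r b l u)) :=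
  evR_lc (v := ch r b l u) rfl (evR_lc (v := cg r b l u) rfl (evR_lc (v := cg2 r b l u) rfl (evR_lc (v := cg3 r b l u) rfl (evR_lc (v := cg4 r b l u) rfl (evR_lc (v := cg5 r b l u) rfl (evR_lc (v := cg6 r b l u) rfl (evR_lc (v := cg7 r b l u) rfl (evR_lc (v := cg8 r b l u) rfl (evR_lc (v := cg9 r b l u) rfl (evR_lc (v := ch2 r b l u) rfl (evR_lc (v := ch3 r b l u) rfl (evR_lc (v := ch4 r b l u) rfl (evR_lc (v := cMt r b l u) rfl (evR_lc (v := cst r b l u) rfl (evR_lc (v := cts r b l u) rfl (evR_lc (v := cS r b l u) rfl (evR_lc (v := cy0 r b l u) rfl (evR_lc (v := cy1 r b l u) rfl (evR_lc (v := cy2 r b l u) rfl (evR_lc (v := cD0 r b l u) rfl (evR_lc (v := cD1 r b l u) rfl (evR_lc (v := cD2 r b l u) rfl (evR_lc (v := cP0 r b l u) rfl (evR_lc (v := cP1 r b l u) rfl (evR_lc (v := cPt r b l u) rfl (evR_lc (v := cn0 r b l u) rfl (evR_lc (v := cn1 r b l u) rfl (evR_lc (v := cn2 r b l u) rfl (evR_lc (v := cNn r b l u) rfl (evR_lc (v := ciS r b l u) rfl (rfl)))))))))))))))))))))))))))))))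

set_option maxRecDepth 100000 in
theorem evR_gsA1 (r b l u : ℝ) : Ex.evR (nthEx gsA 1) [r, b, l, u] = ((rv 281475096772608 * cS r b l u) - (r * cPt r b l u)) :=
  evR_lc (v := ch r b l u) rfl (evR_lc (v := cg r b l u) rfl (evR_lc (v := cg2 r b l u) rfl (evR_lc (v := cg3 r b l u) rfl (evR_lc (v := cg4 r b l u) rfl (evR_lc (v := cg5 r b l u) rfl (evR_lc (v := cg6 r b l u) rfl (evR_lc (v := cg7 r b l u) rfl (evR_lc (v := cg8 r b l u) rfl (evR_lc (v := cg9 r b l u) rfl (evR_lc (v := ch2 r b l u) rfl (evR_lc (v := ch3 r b l u) rfl (evR_lc (v := ch4 r b l u) rfl (evR_lc (v := cMt r b l u) rfl (evR_lc (v := cst r b l u) rfl (evR_lc (v := cts r b l u) rfl (evR_lc (v := cS r b l u) rfl (evR_lc (v := cy0 r b l u) rfl (evR_lc (v := cy1 r b l u) rfl (evR_lc (v := cy2 r b l u) rfl (evR_lc (v := cD0 r b l u) rfl (evR_lc (v := cD1 r b l u) rfl (evR_lc (v := cD2 r b l u) rfl (evR_lc (v := cP0 r b l u) rfl (evR_lc (v := cP1 r b l u) rfl (evR_lc (v := cPt r b l u) rfl (evR_lc (v :=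 cn0 r b l u) rfl (evR_lc (v := cn1 r b l u) rfl (evR_lc (v := cn2 r b l u) rfl (evR_lc (v := cNn r b l u) rfl (evR_lc (v := ciS r b l u) rfl (rfl)))))))))))))))))))))))))))))))

set_option maxRecDepth 100000 in
theorem evR_gsL0 (r b l u : ℝ) : Ex.evR (nthEx gsL 0) [r, b, l, u] = ((rv 281475216834560 * cS r b l u) - (r * cP0 r b l u)) :=
  evR_lc (v := ch r b l u) rfl (evR_lc (v := cg r b l u) rfl (evR_lc (v := cg2 r b l u) rfl (evR_lc (v := cg3 r b l u) rfl (evR_lc (v := cg4 r b l u) rfl (evR_lc (v := cg5 r b l u) rfl (evR_lc (v := cg6 r b l u) rfl (evR_lc (v := cg7 r b l u) rfl (evR_lc (v := cg8 r b l u) rfl (evR_lc (v := cg9 r b l u) rfl (evR_lc (v := ch2 r b l u) rfl (evR_lc (v := ch3 r b l u) rfl (evR_lc (v := ch4 r b l u) rfl (evR_lc (v := cMt r b l u) rfl (evR_lc (v := cst r b l u) rfl (evR_lc (v := cts r b l u) rfl (evR_lc (v := cS r b l u) rfl (evR_lc (v := cy0 r b l u) rfl (evR_lc (v := cy1 r b l u) rfl (evR_lc (v := cy2 r b l u) rfl (evR_lc (v := cD0 r b l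 u) rfl (evR_lc (v := cD1 r b l u) rfl (evR_lc (v := cD2 r b l u) rfl (evR_lc (v := cP0 r b l u) rfl (evR_lc (v := cP1 r b l u) rfl (evR_lc (v := cPt r b l u) rfl (evR_lc (v := cn0 r b l u) rfl (evR_lc (v := cn1 r b l u) rfl (evR_lc (v := cn2 r b l u) rfl (evR_lc (v := cNn r b l u) rfl (evR_lc (v := ciS r b l u) rfl (rfl)))))))))))))))))))))))))))))))

set_option maxRecDepth 100000 in
theorem evR_gsL1 (r b l u : ℝ) : Ex.evR (nthEx gsL 1) [r, b, l, u] = ((rv 281475096772608 * cS r b l u) - (r * cPt r b l u)) :=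
  evR_lc (v := ch r b l u) rfl (evR_lc (v := cg r b l u) rfl (evR_lc (v := cg2 r b l u) rfl (evR_lc (v := cg3 r b l u) rfl (evR_lc (v := cg4 r b l u) rfl (evR_lc (v := cg5 r b l u) rfl (evR_lc (v := cg6 r b l u) rfl (evR_lc (v := cg7 r b l u) rfl (evR_lc (v := cg8 r b l u) rfl (evR_lc (v := cg9 r b l u) rfl (evR_lc (v := ch2 r b l u) rfl (evR_lc (v := ch3 r b l u) rfl (evR_lc (v := ch4 r b l u) rfl (evR_lc (v := cMt r b l u) rfl (evR_lc (v := cst r b l u) rfl (evR_lc (v := cts r b l u) rfl (evR_lc (v := cS r b l u) rfl (evR_lc (v := cy0 r b l u) rfl (evR_lc (v := cy1 r b l u) rfl (evR_lc (v := cy2 r b l u) rfl (evR_lc (v := cD0 r b l u) rfl (evR_lc (v := cD1 r b l u) rfl (evR_lc (v := cD2 r b l u) rfl (evR_lc (v := cP0 r b l u) rfl (evR_lc (v := cP1 r b l u) rfl (evR_lc (v := cPt r b l u) rfl (evR_lc (v := cn0 r b l u) rfl (evR_lc (v := cn1 r b l u) rfl (evR_lc (v := cn2 r b l u) rfl (evR_lc (v := cNn r b l u) rfl (evR_lc (v := ciS r b l u) rfl (rfl)))))))))))))))))))))))))))))))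

end SF

end Vale.Agent.Lib.P154
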